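import Vale.Agent.N144.Sb.Ker

/-!
The spin field as a tight family of random elements of `H^{-s}(U)`, `s > 1 / 8`.
-/

set_option linter.all false

noncomputable section

namespace Vale.Agent.N144.Sb

open MeasureTheory Filter Topology Metric Set TopologicalSpace Vale.Agent.P144 Vale.Agent.P144W
open Vale.Agent.P144F58 Vale.Agent.P144H Vale.Agent.P153.H212
open Vale.Agent.P153DH (Rep H0 wt JS)
open scoped FourierTransform SchwartzMap ENNReal

section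

variable {H H' : Type} [NormedAddCommGroup H] [NormedSpace ℝ H] [NormedAddCommGroup H']
  [NormedSpace ℝ H'] {Y Z : Config → H} {ρ : Measure Config} [IsProbabilityMeasure ρ]

/-- Bounded random elements. -/
def Bm (Y : Config → H) : Prop := StronglyMeasurable Y ∧ ∃ N : ℝ, ∀ σ, ‖Y σ‖ ≤ N

theorem Bm.sub (h : Bm Y) (h' : Bm Z) : Bm fun σ => Y σ - Z σ :=
  let ⟨N, hN⟩ := h.2
  let ⟨N', hN'⟩ := h'.2
  ⟨h.1.sub h'.1, N + N', fun σ => (norm_sub_le _ _).trans (add_le_add (hN σ) (hN' σ))⟩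

theorem Bm.map (h : Bm Y) (T : H →L[ℝ] H') : Bm fun σ => T (Y σ) :=
  let ⟨N, hN⟩ := h.2
  ⟨T.continuous.comp_stronglyMeasurable h.1, ‖T‖ * N, fun σ => T.le_opNorm_of_le (hN σ)⟩

theorem Bm.int (h : Bm Y) : Integrable (fun σ => ‖Y σ‖ ^ 2) ρ := by
  obtain ⟨N, hN⟩ := h.2
  refine Integrable.of_bound (h.1.norm.measurable.pow_const 2).aestronglyMeasurable (N ^ 2)
    (Eventually.of_forall fun σ => ?_)
  rw [norm_pow, norm_norm]
  exact pow_le_pow_left₀ (norm_nonneg _) (hN σ) 2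

theorem tri {g : Config → ℝ} {Z : Config → H'} (h : Bm Y) (h' : Bm Z) (g0 : ∀ σ, 0 ≤ g σ)
    (hg : ∀ σ, g σ ≤ ‖Y σ‖ + ‖Z σ‖) :
    ∫ σ, g σ ^ 2 ∂ρ ≤ 2 * ∫ σ, ‖Y σ‖ ^ 2 ∂ρ + 2 * ∫ σ, ‖Z σ‖ ^ 2 ∂ρ := by
  rw [← integral_const_mul, ← integral_const_mul,
    ← integral_add (h.int.const_mul _) (h'.int.const_mul _)]
  refine integral_mono_of_nonneg (Eventually.of_forall fun σ => sq_nonneg _)
    ((h.int.const_mul _).add (h'.int.const_mul _)) (Eventually.of_forall fun σ => ?_)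
  have := pow_le_pow_left₀ (g0 σ) (hg σ) 2
  show g σ ^ 2 ≤ 2 * ‖Y σ‖ ^ 2 + 2 * ‖Z σ‖ ^ 2
  nlinarith [sq_nonneg (‖Y σ‖ - ‖Z σ‖)]

end

theorem bm_int {H : Type} [NormedAddCommGroup H] [InnerProductSpace ℝ H] [CompleteSpace H]
    {m : Measure ℂ} [IsFiniteMeasure m] {a : ℝ} (ha : 0 < a) {b : ℂ → H}
    (hb : StronglyMeasurable b) {M : ℝ} (hM : ∀ z, ‖b z‖ ≤ M) :
    Bm fun σ => ∫ z, ph a z σ • b z ∂m :=
  ⟨(sm_ph a hb).integral_prod_left', a ^ (-(1 / 8) : ℝ) * M * m.real univ, fun σ =>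
    norm_integral_le_of_norm_le_const (Eventually.of_forall fun z => by
      rw [norm_smul]
      exact mul_le_mul (ph_bd ha z σ) (hM z) (norm_nonneg _) (by positivity))⟩

theorem mult_le {s s' τ t r : ℝ} (h0 : 0 ≤ s') (h1 : s' ≤ 1) (hs : s' ≤ s) (hτ : 0 < τ)
    (t0 : 0 ≤ t) (t1 : t ≤ τ) (hr : 0 ≤ r) :
    |(1 + r) ^ (-s / 2) * (1 - Real.exp (-t * r))| ≤ τ ^ (s' / 2) := by
  have a0 : 0 ≤ 1 - Real.exp (-t * r) := by
    rw [sub_nonneg, Real.exp_le_one_iff, neg_mul, neg_nonpos]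
    positivity
  have a1 : 1 - Real.exp (-t * r) ≤ (τ * r) ^ (s' / 2) := by
    rcases le_total (τ * r) 1 with c | c
    · have b1 := Real.add_one_le_exp (-t * r)
      have b2 : t * r ≤ τ * r := mul_le_mul_of_nonneg_right t1 hr
      have b3 := Real.self_le_rpow_of_le_one (y := s' / 2) (by positivity : 0 ≤ τ * r) c
        (by linarith)
      linarith
    · have b1 := Real.exp_pos (-t * r)
      have b3 := Real.one_le_rpow c (by positivity : 0 ≤ s' / 2)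
      linarith
  have a2 : (1 + r) ^ (-s / 2) ≤ ((1 + r) ^ (s' / 2))⁻¹ := by
    rw [← Real.rpow_neg (by positivity)]
    exact Real.rpow_le_rpow_of_exponent_le (by linarith) (by linarith)
  have a3 : r ^ (s' / 2) ≤ (1 + r) ^ (s' / 2) := Real.rpow_le_rpow hr (by linarith) (by positivity)
  have a4 : 0 < (1 + r) ^ (s' / 2) := by positivity
  rw [abs_of_nonneg (by positivity)]
  refine (mul_le_mul a2 a1 a0 (by positivity)).trans ?_
  rw [Real.mul_rpow hτ.le hr, inv_mul_le_iff₀ a4, mul_comm]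
  exact mul_le_mul_of_nonneg_right a3 (by positivity)

theorem exists_M {s : ℝ} (hs : 0 ≤ s) : ∃ M : L2 →L[ℝ] L2, (∀ v, ‖M v‖ ≤ ‖v‖) ∧
    ∀ v, M v =ᵐ[volume] fun ξ => wt (-s) ξ * v ξ := by
  obtain ⟨M, h1, h2⟩ := exists_mul (m := fun ξ : ℂ => (1 + ‖ξ‖ ^ 2) ^ (-s / 2)) (c := 1)
    (Continuous.rpow_const (by fun_prop) fun ξ => Or.inl (by positivity)) fun ξ => by
      rw [abs_of_nonneg (by positivity)]
      exact Real.rpow_le_one_of_one_le_of_nonpos (by nlinarith [sq_nonneg ‖ξ‖]) (by linarith)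
  exact ⟨M, fun v => by simpa only [one_mul] using h1 v, h2⟩

section

variable {s : ℝ} {M : L2 →L[ℝ] L2} (hM : ∀ v, M v =ᵐ[volume] fun ξ => wt (-s) ξ * v ξ)
include hM

theorem M_step {s' τ τ' : ℝ} (h0 : 0 ≤ s') (h1 : s' ≤ 1) (hs : s' ≤ s) (hτ : 0 < τ')
    (hτ' : τ' ≤ τ) : ∃ N : L2 →L[ℝ] L2, (∀ v, ‖N v‖ ≤ τ ^ (s' / 2) * ‖v‖) ∧
      ∀ x, M (E τ' x) - M (E τ x) = N (E τ' x) := by
  obtain ⟨N, n1, n2⟩ := exists_mul (c := τ ^ (s' / 2))
    (m := fun ξ : ℂ => (1 + ‖ξ‖ ^ 2) ^ (-s / 2) * (1 - Real.exp (-(τ - τ') * ‖ξ‖ ^ 2)))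
    ((Continuous.rpow_const (by fun_prop) fun ξ => Or.inl (by positivity)).mul (by fun_prop))
    fun ξ => mult_le h0 h1 hs (by linarith) (by linarith) (by linarith) (sq_nonneg _)
  refine ⟨N, n1, fun x => Lp.ext ?_⟩
  filter_upwards [Lp.coeFn_sub (M (E τ' x)) (M (E τ x)), hM (E τ' x), hM (E τ x), n2 (E τ' x),
    E_ae hτ x, E_ae (hτ.trans_le hτ') x] with ξ a1 a2 a3 a4 a5 a6
  rw [a1, Pi.sub_apply, a2, a3, a4, a5, a6, ge, ge, P153DH.wt,
    show -τ * ‖ξ‖ ^ 2 = -(τ - τ') * ‖ξ‖ ^ 2 + -τ' * ‖ξ‖ ^ 2 by ring, Real.exp_add]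
  simp only [Complex.ofReal_mul, Complex.ofReal_sub, Complex.ofReal_one]
  ring

theorem M_JS (g : 𝓢(ℂ, ℂ)) {τ : ℕ → ℝ} (h0 : ∀ j, 0 < τ j) (hτ : Tendsto τ atTop (𝓝 0)) :
    ∃ e : ℕ → ℝ, Tendsto e atTop (𝓝 0) ∧
      ∀ j x, |inner ℝ (M (E (τ j) x)) (JS s g) - (g x).re| ≤ e j := by
  have hi : Integrable (𝓕 (g : ℂ → ℂ)) := (𝓕 g).integrable
  have b0 : ∀ j (ξ : ℂ), 0 ≤ 1 - Real.exp (-τ j * ‖ξ‖ ^ 2) := fun j ξ => by
    have := h0 j
    rw [sub_nonneg, Real.exp_le_one_iff, neg_mul, neg_nonpos]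
    positivity
  have b1 : ∀ j (ξ : ℂ), 1 - Real.exp (-τ j * ‖ξ‖ ^ 2) ≤ 1 := fun j ξ =>
    sub_le_self _ (Real.exp_pos _).le
  have cm : ∀ j, Continuous fun ξ : ℂ => 1 - Real.exp (-τ j * ‖ξ‖ ^ 2) := fun j => by fun_prop
  refine ⟨fun j => ∫ ξ : ℂ, (1 - Real.exp (-τ j * ‖ξ‖ ^ 2)) * ‖𝓕 (g : ℂ → ℂ) ξ‖, ?_,
    fun j x => ?_⟩
  · have := tendsto_integral_of_dominated_convergence (μ := (volume : Measure ℂ))
      (F := fun j (ξ : ℂ) => (1 - Real.exp (-τ j * ‖ξ‖ ^ 2)) * ‖𝓕 (g : ℂ → ℂ) ξ‖)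
      (f := fun _ => 0) (fun ξ => ‖𝓕 (g : ℂ → ℂ) ξ‖)
      (fun j => (cm j).aestronglyMeasurable.mul hi.norm.1) hi.norm
      (fun j => ae_of_all _ fun ξ => by
        rw [norm_mul, norm_norm, Real.norm_of_nonneg (b0 j ξ)]
        exact mul_le_of_le_one_left (norm_nonneg _) (b1 j ξ))
      (ae_of_all _ fun ξ => by
        have c : Continuous fun t : ℝ => (1 - Real.exp (-t * ‖ξ‖ ^ 2)) * ‖𝓕 (g : ℂ → ℂ) ξ‖ := by
          fun_prop
        simpa [Function.comp_def] using (c.tendsto 0).comp hτ)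
    simpa only [integral_zero] using this
  · have i1 := char_int hi x
    have i2 : Integrable fun ξ : ℂ => ((1 - Real.exp (-τ j * ‖ξ‖ ^ 2) : ℝ) : ℂ) *
        ((𝐞 (inner ℝ ξ x) : Circle) • 𝓕 (g : ℂ → ℂ) ξ) :=
      i1.bdd_mul (c := 1) (Complex.continuous_ofReal.comp (cm j)).aestronglyMeasurable
        (ae_of_all _ fun ξ => by
          rw [Complex.norm_real, Real.norm_of_nonneg (b0 j ξ)]
          exact b1 j ξ)
    have e : g x = ∫ ξ : ℂ, (𝐞 (inner ℝ ξ x) : Circle) • 𝓕 (g : ℂ → ℂ) ξ := by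
      rw [← Real.fourierInv_eq, g.continuous.fourierInv_fourier_eq g.integrable (𝓕 g).integrable]
    have e2 : inner ℝ (M (E (τ j) x)) (JS s g) = (g x - ∫ ξ : ℂ,
        ((1 - Real.exp (-τ j * ‖ξ‖ ^ 2) : ℝ) : ℂ) *
          ((𝐞 (inner ℝ ξ x) : Circle) • 𝓕 (g : ℂ → ℂ) ξ)).re := by
      rw [e, ← integral_sub i1 i2, L2.inner_def]
      refine Eq.trans ?_ (integral_re (i1.sub i2))
      refine integral_congr_ae ?_
      filter_upwards [hM (E (τ j) x), E_ae (h0 j) x, P153DH.JS_ae s g] with ξ a1 a2 a3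
      rw [a1, a2, a3, Complex.inner, ge, map_mul, map_mul, P153DH.wt_conj, Complex.conj_ofReal,
        ← Circle.coe_inv_eq_conj, ← AddChar.map_neg_eq_inv, neg_neg, RCLike.re_to_complex,
        Pi.sub_apply, Circle.smul_def, smul_eq_mul, Complex.ofReal_sub, Complex.ofReal_one]
      congr 1
      linear_combination (𝓕 (g : ℂ → ℂ) ξ * (𝐞 (inner ℝ ξ x) : Circle) *
        ((Real.exp (-τ j * ‖ξ‖ ^ 2) : ℝ) : ℂ)) * P153DH.wt_mul s ξ
    rw [e2, Complex.sub_re, sub_sub_cancel_left, abs_neg]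
    refine (Complex.abs_re_le_norm _).trans ((norm_integral_le_integral_norm _).trans
      (le_of_eq (integral_congr_ae (ae_of_all _ fun ξ => ?_))))
    simp only [norm_mul, Circle.norm_smul, Complex.norm_real, Real.norm_of_nonneg (b0 j ξ)]

end

/-- The field in `L²` with the weight of `H^{-s}`, and its approximations. -/
theorem lim2 {s : ℝ} (hs : 1 / 8 < s) {U : Set ℂ} (mU : MeasurableSet U)
    [IsFiniteMeasure (volume.restrict U)] {K : ℝ} (hK : 0 ≤ K) :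
    ∃ (k : ℕ → ℂ → L2) (N : ℕ → ℝ) (A : ℝ) (W : ℝ → Config → L2), (∀ j, Continuous (k j)) ∧
      (∀ j z, ‖k j z‖ ≤ N j) ∧ ∀ a > (0 : ℝ), Bm (W a) ∧
      (∀ σ (g : 𝓢(ℂ, ℂ)), inner ℝ (W a σ) (JS s g) = ∫ z in U, (g z).re * ph a z σ) ∧
      ∀ ρ : Measure Config, IsProbabilityMeasure ρ → (∀ z ∈ U, ∀ w ∈ U, w ≠ z →
        |∫ σ, ph a z σ * ph a w σ ∂ρ| ≤ K * ‖w - z‖ ^ (-(1 / 4) : ℝ)) →
        ∀ j, ∫ σ, ‖W a σ - ∫ z in U, ph a z σ • k j z‖ ^ 2 ∂ρ ≤ A * (1 / 4) ^ j := by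
  obtain ⟨s', s0, s1, s2⟩ : ∃ s', 1 / 8 < s' ∧ s' ≤ 1 ∧ s' ≤ s :=
    ⟨min s 1, lt_min hs (by norm_num), min_le_right _ _, min_le_left _ _⟩
  obtain ⟨θ, θ0, θ1, θ2⟩ : ∃ θ : ℝ, 0 < θ ∧ θ < 1 ∧ θ ^ (s' - 1 / 8) = 1 / 4 :=
    ⟨(1 / 4) ^ (s' - 1 / 8)⁻¹, by positivity,
      Real.rpow_lt_one (by norm_num) (by norm_num) (inv_pos.2 (by linarith)),
      Real.rpow_inv_rpow (by norm_num) (by linarith)⟩
  obtain ⟨M, m1, hM⟩ := exists_M (s := s) (by linarith)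
  have t0 : ∀ j : ℕ, 0 < θ ^ j := fun j => pow_pos θ0 j
  choose N n1 n2 using fun j : ℕ => M_step hM (s' := s') (by linarith) s1 s2 (t0 (j + 1))
    (pow_le_pow_of_le_one θ0.le θ1.le (Nat.le_succ j))
  obtain ⟨c₀, c0, h₀⟩ := heat (γ := 0) le_rfl two_pos
  obtain ⟨c₁, c1, h₁⟩ := heat (γ := 1 / 4) (by norm_num) (by norm_num)
  set v := (volume.restrict U).real univ with hv
  have v0 : 0 ≤ v := measureReal_nonneg
  have eS : ∀ j : ℕ, StronglyMeasurable (E (θ ^ j)) := fun j => (E_cont (t0 j)).stronglyMeasurable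
  let V : ℕ → ℝ → Config → L2 := fun j a σ => ∫ z in U, ph a z σ • E (θ ^ j) z
  have hk : ∀ j z, ‖M (E (θ ^ j) z)‖ ≤ √(p (θ ^ j) 0) := fun j z => (m1 _).trans (E_norm (t0 j) z)
  have ck : ∀ j : ℕ, Continuous fun z => M (E (θ ^ j) z) := fun j =>
    M.continuous.comp (E_cont (t0 j))
  let Y : ℕ → ℝ → Config → L2 := fun j a σ => ∫ z in U, ph a z σ • M (E (θ ^ j) z)
  have bY : ∀ j, ∀ a > (0 : ℝ), Bm (Y j a) := fun j a ha =>
    bm_int ha (ck j).stronglyMeasurable (hk j)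
  have bV : ∀ j, ∀ a > (0 : ℝ), Bm (V j a) := fun j a ha => bm_int ha (eS j) (E_norm (t0 j))
  have st : ∀ j, ∀ a > (0 : ℝ), ∀ σ,
      ‖Y (j + 1) a σ - Y j a σ‖ ≤ (θ ^ j) ^ (s' / 2) * ‖V (j + 1) a σ‖ := fun j a ha σ => by
    refine le_trans (le_of_eq (congrArg norm ?_)) (n1 j _)
    simp only [Y, V]
    rw [← integral_sub (int_ph ha (ck _).stronglyMeasurable (hk _) σ)
      (int_ph ha (ck _).stronglyMeasurable (hk _) σ),
      ← (N j).integral_comp_comm (int_ph ha (eS _) (E_norm (t0 _)) σ)]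
    simp only [← smul_sub, n2, map_smul]
  have mV : ∀ (γ c B : ℝ), 0 ≤ B → (∀ τ > (0 : ℝ), Integrable (fun u : ℂ => ‖u‖ ^ (-γ) * p τ u) ∧
      ∫ u : ℂ, ‖u‖ ^ (-γ) * p τ u = c * τ ^ (-(γ / 2))) → ∀ a > (0 : ℝ), ∀ ρ : Measure Config,
      IsProbabilityMeasure ρ → (∀ z ∈ U, ∀ w ∈ U, w ≠ z →
        |∫ σ, ph a z σ * ph a w σ ∂ρ| ≤ B * ‖w - z‖ ^ (-γ)) →
      ∀ j, ∫ σ, ‖V j a σ‖ ^ 2 ∂ρ ≤ B * (c * (θ ^ j) ^ (-(γ / 2))) * v := by
    intro γ c B hB h a ha ρ _ h2 j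
    have := mom (ρ := ρ) mU ha (eS j) (E_norm (t0 j)) ((h _ (t0 j)).1.const_mul B)
      (fun u => by
        have := p_pos (t0 j) u
        positivity) fun z hz w hw e => by
        rw [E_inner (t0 j), abs_of_pos (p_pos (t0 j) _), ← mul_assoc]
        exact mul_le_mul_of_nonneg_right (h2 z hz w hw e) (p_pos (t0 j) _).le
    rwa [integral_const_mul, (h _ (t0 j)).2] at this
  obtain ⟨r, hr⟩ : ∃ r, r = θ ^ (s' / 2) := ⟨_, rfl⟩
  have r0 : 0 ≤ r := by rw [hr]; positivity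
  have r1 : r < 1 := by
    rw [hr]
    exact Real.rpow_lt_one θ0.le θ1 (by linarith)
  have rp : ∀ (j : ℕ) (y : ℝ), (θ ^ j) ^ y = (θ ^ y) ^ j := fun j y => by
    rw [← Real.rpow_natCast, ← Real.rpow_mul θ0.le, mul_comm, Real.rpow_mul θ0.le,
      Real.rpow_natCast]
  have dt : ∀ a > (0 : ℝ), ∃ B, ∀ σ j, dist (Y j a σ) (Y (j + 1) a σ) ≤ B * r ^ j := fun a ha => by
    refine ⟨√((a ^ (-(1 / 8) : ℝ)) ^ 2 * c₀ * v), fun σ j => ?_⟩
    have := mV 0 c₀ ((a ^ (-(1 / 8) : ℝ)) ^ 2) (sq_nonneg _) h₀ a ha (Measure.dirac σ)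
      inferInstance (fun z _ w _ _ => by
        rw [integral_dirac, neg_zero, Real.rpow_zero, mul_one, abs_mul, pow_two]
        exact mul_le_mul (ph_bd ha z σ) (ph_bd ha w σ) (abs_nonneg _) (by positivity)) (j + 1)
    rw [integral_dirac, zero_div, neg_zero, Real.rpow_zero, mul_one] at this
    rw [dist_comm, dist_eq_norm, mul_comm, hr, ← rp]
    exact (st j a ha σ).trans (mul_le_mul_of_nonneg_left (Real.le_sqrt_of_sq_le this)
      (by positivity))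
  choose! B hB using dt
  choose! W hW using fun a (ha : a > (0 : ℝ)) σ =>
    cauchySeq_tendsto_of_complete (cauchySeq_of_le_geometric r (B a) r1 (hB a ha σ))
  have dW : ∀ a > (0 : ℝ), ∀ σ j, ‖W a σ - Y j a σ‖ ≤ B a * r ^ j / (1 - r) := fun a ha σ j => by
    rw [← dist_eq_norm, dist_comm]
    exact dist_le_of_le_geometric_of_tendsto r (B a) r1 (hB a ha σ) (hW a ha σ) j
  have bW : ∀ a > (0 : ℝ), Bm (W a) := fun a ha => by
    obtain ⟨N₀, hN⟩ := (bY 0 a ha).2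
    refine ⟨stronglyMeasurable_of_tendsto atTop (fun j => (bY j a ha).1)
      (tendsto_pi_nhds.2 (hW a ha)), B a * r ^ 0 / (1 - r) + N₀, fun σ => ?_⟩
    have := norm_add_le (W a σ - Y 0 a σ) (Y 0 a σ)
    rw [sub_add_cancel] at this
    exact this.trans (add_le_add (dW a ha σ 0) (hN σ))
  obtain ⟨A, hA⟩ : ∃ A, A = K * (c₁ * θ ^ (-(1 / 8) : ℝ)) * v := ⟨_, rfl⟩
  have A0 : 0 ≤ A := by rw [hA]; positivity
  refine ⟨fun j z => M (E (θ ^ j) z), _, 8 * A, W, ck, hk, fun a ha => ⟨bW a ha, fun σ g => ?_,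
    fun ρ _ h j => ?_⟩⟩
  · obtain ⟨e, e1, e2⟩ := M_JS hM g t0 (tendsto_pow_atTop_nhds_zero_of_lt_one θ0.le θ1)
    refine tendsto_nhds_unique ((hW a ha σ).inner tendsto_const_nhds) ?_
    rw [tendsto_iff_norm_sub_tendsto_zero]
    refine squeeze_zero (g := fun j => a ^ (-(1 / 8) : ℝ) * e j * v) (fun _ => norm_nonneg _)
      (fun j => ?_) (by simpa using (e1.const_mul (a ^ (-(1 / 8) : ℝ))).mul_const v)
    have i1 := int_ph (m := volume.restrict U) ha (ck j).stronglyMeasurable (hk j) σ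
    have i2 := int_ph (m := volume.restrict U) ha (b := fun z => (g z).re)
      (Complex.continuous_re.comp g.continuous).stronglyMeasurable
      (fun z => (Complex.abs_re_le_norm _).trans (g.norm_le_seminorm ℝ z)) σ
    simp only [smul_eq_mul, mul_comm (ph a _ σ)] at i2
    simp only [Y]
    rw [real_inner_comm, ← integral_inner i1, ← integral_sub (i1.const_inner _) i2]
    refine norm_integral_le_of_norm_le_const (Eventually.of_forall fun z => ?_)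
    rw [real_inner_smul_right, real_inner_comm, mul_comm (g z).re, ← mul_sub, norm_mul]
    exact mul_le_mul (ph_bd ha z σ) (e2 j z) (norm_nonneg _) (by positivity)
  · have d1 : ∀ i, ∫ σ, ‖Y (i + 1) a σ - Y i a σ‖ ^ 2 ∂ρ ≤ A * (1 / 4) ^ i := fun i => by
      have k1 := mV (1 / 4) c₁ K hK h₁ a ha ρ inferInstance h (i + 1)
      have k2 : ∫ σ, ‖Y (i + 1) a σ - Y i a σ‖ ^ 2 ∂ρ ≤
          ∫ σ, ((θ ^ i) ^ (s' / 2)) ^ 2 * ‖V (i + 1) a σ‖ ^ 2 ∂ρ :=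
        integral_mono ((bY _ a ha).sub (bY _ a ha)).int ((bV _ a ha).int.const_mul _) fun σ => by
          simpa only [mul_pow] using pow_le_pow_left₀ (norm_nonneg _) (st i a ha σ) 2
      rw [integral_const_mul] at k2
      refine k2.trans ((mul_le_mul_of_nonneg_left k1 (sq_nonneg _)).trans (le_of_eq ?_))
      rw [hA, show (-(1 / 4 / 2) : ℝ) = -(1 / 8) by norm_num, ← θ2, ← rp, pow_succ θ,
        Real.mul_rpow (t0 i).le θ0.le, ← Real.rpow_natCast _ 2, ← Real.rpow_mul (t0 i).le,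
        show s' - 1 / 8 = s' / 2 * (2 : ℕ) + -(1 / 8) by push_cast; ring, Real.rpow_add (t0 i)]
      ring
    have d2 : ∀ n i, ∫ σ, ‖Y (i + n) a σ - Y i a σ‖ ^ 2 ∂ρ ≤ 4 * A * (1 / 4) ^ i := by
      intro n
      induction n with
      | zero =>
        intro i
        simp only [add_zero, sub_self, norm_zero, ne_eq, OfNat.ofNat_ne_zero, not_false_eq_true,
          zero_pow, integral_zero]
        positivity
      | succ n ih =>
        intro i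
        have k1 := tri (ρ := ρ) ((bY (i + 1 + n) a ha).sub (bY (i + 1) a ha))
          ((bY (i + 1) a ha).sub (bY i a ha)) (fun σ => norm_nonneg _)
          fun σ => norm_sub_le_norm_sub_add_norm_sub (Y (i + 1 + n) a σ) _ (Y i a σ)
        have k2 := ih (i + 1)
        have k3 := d1 i
        rw [show i + (n + 1) = i + 1 + n by ring]
        rw [pow_succ] at k2
        linarith
    have lim : Tendsto (fun n : ℕ => 2 * (B a * r ^ (j + n) / (1 - r)) ^ 2 + 8 * A * (1 / 4) ^ j)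
        atTop (𝓝 (8 * A * (1 / 4) ^ j)) := by
      have := (tendsto_pow_atTop_nhds_zero_of_lt_one r0 r1).const_mul (r ^ j)
      simp only [← pow_add] at this
      simpa using ((((this.const_mul (B a)).div_const (1 - r)).pow 2).const_mul 2).add_const
        (8 * A * (1 / 4) ^ j)
    refine ge_of_tendsto' lim fun n => ?_
    have k1 := tri (ρ := ρ) ((bW a ha).sub (bY (j + n) a ha)) ((bY (j + n) a ha).sub (bY j a ha))
      (fun σ => norm_nonneg _) fun σ => norm_sub_le_norm_sub_add_norm_sub (W a σ) _ (Y j a σ)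
    have k2 : ∫ σ, ‖W a σ - Y (j + n) a σ‖ ^ 2 ∂ρ ≤ (B a * r ^ (j + n) / (1 - r)) ^ 2 :=
      (integral_mono ((bW a ha).sub (bY (j + n) a ha)).int (integrable_const _) fun σ =>
        pow_le_pow_left₀ (norm_nonneg _) (dW a ha σ _) 2).trans (by simp)
    have k3 := d2 n j
    show ∫ σ, ‖W a σ - Y j a σ‖ ^ 2 ∂ρ ≤ _
    linarith

end Vale.Agent.N144.Sb
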