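import Vale.Agent.N144.DefsH
import Vale.Agent.N144.Sb.Conv
import Vale.Agent.N144.Sf.Soft

/-!
The spin field converges in law in `H^{-s}(U)`, `s > 1 / 8`.
-/

set_option linter.all false

noncomputable section

namespace Vale.Agent.N144.Sb

open MeasureTheory Filter Topology Metric Set TopologicalSpace Vale.Agent.P144 Vale.Agent.P144W
open Vale.Agent.P144F58 Vale.Agent.P144H Vale.Agent.P153.H212 Vale.Agent.P144Z
open Vale.Agent.P153DH (Rep H0 JS)
open scoped FourierTransform SchwartzMap ENNReal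

theorem exists_R (D : Opens ℂ) (s : ℝ) :
    ∃ R : SmoothOn D →ₗ[ℝ] H0 s D, (∀ f : SmoothOn D, Rep s f (R f)) ∧ IsH0 s R := by
  have hU : ∀ f, (∃ φ, TestOn D φ ∧ Rep s φ f) → f ∈ H0 s D := fun f hf =>
    Submodule.le_topologicalClosure _ (Submodule.subset_span hf)
  have k1 : ∀ φ, TestOn D φ → ∃ f : H0 s D, Rep s φ f := fun φ hφ => by
    obtain ⟨g, hg⟩ := P153DH.sch hφ
    have h := (P153DH.rep_iff (s := s) hg _).2 rfl
    exact ⟨⟨_, hU _ ⟨φ, hφ, h⟩⟩, h⟩
  have k2 : Dense {f : H0 s D | ∃ φ, TestOn D φ ∧ Rep s φ f} := fun w => by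
    have hw : (w : L2) ∈ closure
        (Submodule.span ℝ {f | ∃ φ, TestOn D φ ∧ Rep s φ f} : Set _) := w.2
    rw [closure_subtype]
    refine closure_mono (fun f hf => ?_) hw
    exact ⟨⟨f, hU f (P153DH.span_sub hf)⟩, P153DH.span_sub hf, rfl⟩
  choose r hr using fun f : SmoothOn D => k1 f (test_on f)
  have lin : ∀ (c : ℝ) (f g : SmoothOn D), r (c • f + g) = c • r f + r g := fun c f g =>
    rep_uq (hr _) (P153DH.rep_lin (test_on f) (test_on g) c (hr f) (hr g))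
  have r0 : r 0 = 0 := rep_uq (hr _) (P153DH.rep_zero s)
  refine ⟨⟨⟨r, fun f g => ?_⟩, fun c f => ?_⟩, hr,
    (Submodule.isClosed_topologicalClosure _).completeSpace_coe, k2.mono ?_,
    fun f => rep_norm (hr f)⟩
  · have := lin 1 f g
    rwa [one_smul, one_smul] at this
  · have := lin c f 0
    rwa [add_zero, r0, add_zero] at this
  · rintro a ⟨φ, h1, h2⟩
    exact ⟨⟨φ, h1.1, h1.2.1, h1.2.2⟩, rep_uq (hr _) h2⟩

variable {U : Opens ℂ} {H : Type} [NormedAddCommGroup H] [InnerProductSpace ℝ H] {s : ℝ}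
  {J : SmoothOn U →ₗ[ℝ] H}

theorem proj (hJ : IsH0 s J) : SecondCountableTopology H ∧ ∃ T : L2 →L[ℝ] H,
    (∀ v, ‖T v‖ ≤ ‖v‖) ∧ ∀ f : SmoothOn U, ∃ g : 𝓢(ℂ, ℂ), (∀ z, (g z).re = f z) ∧
      ∀ v, inner ℝ (J f) (T v) = inner ℝ v (JS s g) := by
  obtain ⟨R, h1, h⟩ := exists_R U s
  have := h.1
  have := hJ.1
  have hn : ∀ f, ‖J (LinearEquiv.refl ℝ (SmoothOn U) f)‖ = ‖R f‖ := fun f =>
    (pow_left_inj₀ (norm_nonneg _) (norm_nonneg _) two_ne_zero).1
      ((hJ.2.2 f).trans (h.2.2 f).symm)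
  let ι : H0 s U ≃ₗᵢ[ℝ] H := (LinearEquiv.refl ℝ (SmoothOn U)).extendOfIsometry R J h.2.1 hJ.2.1 hn
  have hι : ∀ f, ι (R f) = J f := fun f =>
    LinearEquiv.extendOfIsometry_eq _ R J h.2.1 hJ.2.1 hn f
  haveI : Fact ((2 : ENNReal) ≠ ⊤) := ⟨by simp⟩
  refine ⟨ι.symm.toHomeomorph.isEmbedding.secondCountableTopology,
    ι.toLinearIsometry.toContinuousLinearMap.comp (H0 s U).orthogonalProjectionOnto,
    fun v => (ι.norm_map _).trans_le ((H0 s U).norm_orthogonalProjectionOnto_apply_le _),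
    fun f => ?_⟩
  obtain ⟨g, hg⟩ := P153DH.sch (test_on f)
  refine ⟨g, fun z => by rw [hg]; rfl, fun v => ?_⟩
  rw [← hι]
  refine (ι.inner_map_map _ ((H0 s U).orthogonalProjectionOnto v)).trans ?_
  rw [real_inner_comm, Submodule.inner_orthogonalProjectionOnto_eq_of_mem_right,
    (P153DH.rep_iff hg _).1 (h1 f)]

/-- The two-point bound. -/
def Two (U : Set ℂ) (ρ : ℝ → Measure Config) : Prop :=
  ∃ K : ℝ, 0 ≤ K ∧ ∀ a > (0 : ℝ), ∀ z ∈ U, ∀ w ∈ U, w ≠ z →
    |∫ σ, ph a z σ * ph a w σ ∂ρ a| ≤ K * ‖w - z‖ ^ (-(1 / 4) : ℝ)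

theorem conv (hs : 1 / 8 < s) (hU : Bornology.IsBounded (U : Set ℂ)) (hJ : IsH0 s J)
    {ρ : ℝ → Measure Config} (hρ : ∀ a, IsProbabilityMeasure (ρ a)) (h2 : Two U ρ) :
    ∃ W : ℝ → Config → H, (∀ a > (0 : ℝ), Bm (W a) ∧
      ∀ σ f, inner ℝ (J f) (W a σ) = smear a f σ) ∧ ∀ ε > 0, ∃ F : Submodule ℝ H,
        FiniteDimensional ℝ F ∧ ∃ B : ℝ, ∀ a > (0 : ℝ), ∫ σ, ‖W a σ‖ ^ 2 ∂ρ a ≤ B ∧
          ∫ σ, infDist (W a σ) (F : Set H) ^ 2 ∂ρ a ≤ ε := by
  haveI := hJ.1
  obtain ⟨hsc, T, t1, t2⟩ := proj hJ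
  obtain ⟨K, hK, h2⟩ := h2
  have mU : MeasurableSet (U : Set ℂ) := U.isOpen.measurableSet
  haveI : IsFiniteMeasure (volume.restrict (U : Set ℂ)) :=
    isFiniteMeasure_restrict.2 hU.measure_lt_top.ne
  obtain ⟨k, N, A, W, k1, k2, h⟩ := lim2 hs mU hK
  obtain ⟨R, hR⟩ := hU.subset_ball 0
  obtain ⟨c, hc⟩ : ∃ c, c = K * (∫ u, (ball (0 : ℂ) (R + R)).indicator
    (fun w => ‖w‖ ^ (-(1 / 4) : ℝ)) u) * (volume.restrict (U : Set ℂ)).real univ := ⟨_, rfl⟩
  have G0 : ∀ u, 0 ≤ (ball (0 : ℂ) (R + R)).indicator (fun w => ‖w‖ ^ (-(1 / 4) : ℝ)) u :=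
    fun u => indicator_nonneg (fun w _ => by positivity) u
  have c0 : 0 ≤ c := by
    rw [hc]
    exact mul_nonneg (mul_nonneg hK (integral_nonneg G0)) measureReal_nonneg
  have mm : ∀ a > (0 : ℝ), ∀ b : ℂ → H, Continuous b → ∀ M η : ℝ, (∀ z, ‖b z‖ ≤ M) →
      (∀ z ∈ (U : Set ℂ), ‖b z‖ ≤ η) →
      ∫ σ, ‖∫ z in U, ph a z σ • b z‖ ^ 2 ∂ρ a ≤ c * η ^ 2 := by
    intro a ha b hb M η b1 b2
    have := mom (ρ := ρ a) mU ha hb.stronglyMeasurable b1
      ((sing_int (γ := 1 / 4) (by norm_num) (R + R)).const_mul (η ^ 2 * K))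
      (fun u => mul_nonneg (by positivity) (G0 u)) fun z hz w hw e => by
        have hw' : w - z ∈ ball (0 : ℂ) (R + R) := by
          rw [mem_ball_zero_iff]
          exact (norm_sub_le _ _).trans_lt
            (add_lt_add (mem_ball_zero_iff.1 (hR hw)) (mem_ball_zero_iff.1 (hR hz)))
        rw [indicator_of_mem hw', mul_assoc, mul_comm (η ^ 2)]
        refine mul_le_mul (h2 a ha z hz w hw e) ((abs_real_inner_le_norm _ _).trans ?_)
          (abs_nonneg _) (by positivity)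
        rw [pow_two]
        exact mul_le_mul (b2 z hz) (b2 w hw) (norm_nonneg _) ((norm_nonneg _).trans (b2 z hz))
    rw [integral_const_mul] at this
    exact this.trans (le_of_eq (by rw [hc]; ring))
  refine ⟨fun a σ => T (W a σ), fun a ha => ⟨(h a ha).1.map T, fun σ f => ?_⟩, fun ε hε => ?_⟩
  · obtain ⟨g, g1, g2⟩ := t2 f
    rw [g2, (h a ha).2.1, smear]
    simp only [g1]
    exact setIntegral_eq_integral_of_forall_compl_eq_zero fun z hz => by
      rw [image_eq_zero_of_notMem_tsupport fun h => hz (f.tsupport_subset h), zero_mul]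
  obtain ⟨j, hj⟩ := (((tendsto_pow_atTop_nhds_zero_of_lt_one (r := (1 / 4 : ℝ)) (by norm_num)
    (by norm_num)).const_mul A).eventually_le_const (show A * 0 < ε / 4 by linarith)).exists
  obtain ⟨η, η0, hη⟩ : ∃ η > (0 : ℝ), c * η ^ 2 ≤ ε / 4 := by
    refine ⟨√(ε / 4 / (c + 1)), by positivity, ?_⟩
    rw [Real.sq_sqrt (by positivity), ← mul_div_assoc, div_le_iff₀ (by positivity)]
    nlinarith
  have cb : Continuous fun z => T (k j z) := T.continuous.comp (k1 j)
  have bb : ∀ z, ‖T (k j z)‖ ≤ N j := fun z => (t1 _).trans (k2 j z)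
  obtain ⟨F, Q, f1, f2, f3⟩ := P153DK.fin_near ((isCompact_closedBall (0 : ℂ) R).image cb) η0
  refine ⟨F, f1, 2 * (ε / 4) + 2 * (c * N j ^ 2), fun a ha => ?_⟩
  haveI := hρ a
  have b0 := bm_int (m := volume.restrict U) ha (k1 j).stronglyMeasurable (k2 j)
  have b1 := (h a ha).1.sub b0
  have b2 := ((h a ha).2.2 _ (hρ a) (h2 a ha) j).trans hj
  have e : ∀ σ, T (∫ z in U, ph a z σ • k j z) = ∫ z in U, ph a z σ • T (k j z) := fun σ => by
    rw [← T.integral_comp_comm (int_ph ha (k1 j).stronglyMeasurable (k2 j) σ)]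
    simp only [map_smul]
  have b3 : ∀ σ, ‖T (W a σ) - ∫ z in U, ph a z σ • T (k j z)‖ ≤
      ‖W a σ - ∫ z in U, ph a z σ • k j z‖ := fun σ => by
    rw [← e, ← map_sub]
    exact t1 _
  constructor
  · have := tri (ρ := ρ a) (g := fun σ => ‖T (W a σ)‖) b1
      (bm_int (m := volume.restrict U) ha cb.stronglyMeasurable bb) (fun _ => norm_nonneg _)
      fun σ => by
        have := norm_add_le (T (W a σ) - ∫ z in U, ph a z σ • T (k j z))
          (∫ z in U, ph a z σ • T (k j z))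
        rw [sub_add_cancel] at this
        exact this.trans (add_le_add (b3 σ) le_rfl)
    linarith [mm a ha _ cb _ _ bb fun z _ => bb z]
  · have cq : Continuous fun z => T (k j z) - Q (T (k j z)) := cb.sub (Q.continuous.comp cb)
    have bq : ∀ z, ‖T (k j z) - Q (T (k j z))‖ ≤ N j + ‖Q‖ * N j := fun z =>
      (norm_sub_le _ _).trans (add_le_add (bb z) (Q.le_opNorm_of_le (bb z)))
    have := tri (ρ := ρ a) (g := fun σ => infDist (T (W a σ)) (F : Set H)) b1
      (bm_int (m := volume.restrict U) ha cq.stronglyMeasurable bq) (fun _ => infDist_nonneg)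
      fun σ => by
        have i1 := int_ph (m := volume.restrict U) ha cb.stronglyMeasurable bb σ
        refine (infDist_le_dist_of_mem (f2 (∫ z in U, ph a z σ • T (k j z)))).trans ?_
        rw [dist_eq_norm]
        refine (norm_sub_le_norm_sub_add_norm_sub _ (∫ z in U, ph a z σ • T (k j z)) _).trans
          (add_le_add (b3 σ) (le_of_eq ?_))
        rw [← Q.integral_comp_comm i1, ← integral_sub i1 (Q.integrable_comp i1)]
        simp only [map_smul, smul_sub]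
    linarith [mm a ha _ cq _ _ bq fun z hz => f3 _ ⟨z, ball_subset_closedBall (hR hz), rfl⟩]

theorem core (hs : 1 / 8 < s) (hU : Bornology.IsBounded (U : Set ℂ)) (hJ : IsH0 s J)
    {ρ : ℝ → Measure Config} (hρ : ∀ a, IsProbabilityMeasure (ρ a)) (h2 : Two U ρ) {Z : ℝ}
    {C : Pts → ℝ} (hL : ∀ (k : ℕ) (f : Fin k → SmoothOn U), ∃ ν, HasMom Z C (fun i => f i) ν ∧
      (∀ ν', HasMom Z C (fun i => f i) ν' → ν' = ν) ∧
      ∀ F : BoundedContinuousFunction (EuclideanSpace ℝ (Fin k)) ℝ,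
        Tendsto (fun a => ∫ σ, F (WithLp.toLp 2 fun i => smear a (f i) σ) ∂ρ a) (𝓝[>] 0)
          (𝓝 (∫ y, F y ∂ν))) :
    ∃ X : ℝ → Config → StrongDual ℝ H,
      (∀ a > 0, @Measurable _ _ _ (borel _) (X a) ∧ ∀ σ f, X a σ (J f) = smear a f σ) ∧
      ∃ P, DualMom Z C J P ∧ (∀ P', DualMom Z C J P' → P' = P) ∧
        ∀ F : BoundedContinuousFunction (StrongDual ℝ H) ℝ,
          Tendsto (fun a => ∫ σ, F (X a σ) ∂ρ a) (𝓝[>] 0) (𝓝 (∫ T, F T ∂P)) := by
  haveI := hJ.1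
  haveI := (proj hJ).1
  borelize H
  obtain ⟨W, w1, w5⟩ := conv hs hU hJ hρ h2
  obtain ⟨t, t0, t1⟩ : ∃ t : ℝ → ℝ, (∀ a, 0 < t a) ∧ ∀ a > 0, t a = a :=
    ⟨fun a => if 0 < a then a else 1, fun a => by
      dsimp only
      split_ifs with h
      exacts [h, one_pos], fun a ha => if_pos ha⟩
  choose ν hν hu hl using hL
  have ce : ∀ f, Continuous fun T : StrongDual ℝ H => T (J f) := fun f =>
    (ContinuousLinearMap.apply ℝ ℝ (J f)).continuous
  have cv : ∀ k (f : Fin k → SmoothOn U), Continuous fun T : StrongDual ℝ H =>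
      (WithLp.toLp 2 fun i => T (J (f i)) : EuclideanSpace ℝ (Fin k)) := fun k f =>
    (PiLp.continuous_toLp 2 _).comp (continuous_pi fun i => ce (f i))
  have c0 : Continuous fun y : EuclideanSpace ℝ (Fin 1) => y 0 := by fun_prop
  let γ : SmoothOn U → Measure ℝ := fun φ => (ν 1 fun _ => φ).map fun y => y 0
  have hγ : ∀ φ, IsProbabilityMeasure (γ φ) := fun φ =>
    haveI := (hν 1 fun _ => φ).1
    Measure.isProbabilityMeasure_map c0.measurable.aemeasurable
  have h1 : ∀ φ (F : ℝ → ℝ), Continuous F → (∃ M, ∀ x, |F x| ≤ M) →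
      Tendsto (fun a => ∫ σ, F (inner ℝ (J φ) (W (t a) σ)) ∂ρ (t a)) (𝓝[>] 0)
        (𝓝 (∫ x, F x ∂γ φ)) := by
    rintro φ F c ⟨N, hN⟩
    rw [integral_map c0.measurable.aemeasurable c.aestronglyMeasurable]
    refine (hl 1 (fun _ => φ) (BoundedContinuousFunction.ofNormedAddCommGroup
      (fun y => F (y 0)) (c.comp c0) N fun y => hN _)).congr' ?_
    filter_upwards [self_mem_nhdsWithin] with a ha
    simp only [t1 a ha, (w1 a ha).2]
    rfl
  have key := fun (u : ℕ → ℝ) (hu : Tendsto u atTop (𝓝[>] 0)) =>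
    (P153DI.hil_rv (fun n => ρ (t (u n))) (fun _ => hρ _) (fun n => W (t (u n)))
      (fun n => (w1 _ (t0 _)).1.1.measurable.aemeasurable) (fun n => (w1 _ (t0 _)).1.int)
      (by
        obtain ⟨F, -, B, h⟩ := w5 1 one_pos
        exact ⟨B, fun n => (h _ (t0 _)).1⟩) (fun ε hε => by
        obtain ⟨F, f1, B, h⟩ := w5 ε hε
        exact ⟨F, f1, fun n => (h _ (t0 _)).2⟩) J hJ.2.1 γ hγ
      fun i F c b => (h1 i F c b).comp hu).2
  obtain ⟨u, hu0⟩ := (𝓝[>] (0 : ℝ)).exists_seq_tendsto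
  obtain ⟨τ, τ1, τ2⟩ := (key u hu0).1
  have mr : Measurable (P153DK.rz : H → StrongDual ℝ H) := P153DK.cont_rz.measurable
  let P : Measure (StrongDual ℝ H) := τ.map P153DK.rz
  haveI hP : IsProbabilityMeasure P := Measure.isProbabilityMeasure_map mr.aemeasurable
  have pm : ∀ φ, P.map (fun T => T (J φ)) = γ φ := fun φ => by
    rw [Measure.map_map (ce φ).measurable mr, ← τ2]
    congr 1
    funext w
    exact P153DK.rz_apply w _
  have lim' : ∀ F : BoundedContinuousFunction (StrongDual ℝ H) ℝ,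
      Tendsto (fun a => ∫ σ, F (P153DK.rz (W a σ)) ∂ρ a) (𝓝[>] 0) (𝓝 (∫ T, F T ∂P)) := fun F => by
    rw [integral_map mr.aemeasurable F.continuous.aestronglyMeasurable]
    refine Tendsto.congr' (f₁ := fun a => ∫ σ, F (P153DK.rz (W (t a) σ)) ∂ρ (t a)) ?_
      (tendsto_of_seq_tendsto fun v hv => (key v hv).2 τ τ1 τ2 _
        (F.continuous.comp P153DK.cont_rz) ⟨‖F‖, fun x => F.norm_coe_le_norm _⟩)
    filter_upwards [self_mem_nhdsWithin] with a ha
    rw [t1 a ha]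
  have hX : ∀ a > 0, ∀ σ f, P153DK.rz (W a σ) (J f) = smear a f σ := fun a ha σ f =>
    (P153DK.rz_apply _ _).trans ((w1 a ha).2 σ f)
  refine ⟨fun a σ => P153DK.rz (W a σ), fun a ha => ⟨mr.comp (w1 a ha).1.1.measurable, hX a ha⟩, P,
    ⟨hP, fun n hn f => ?_⟩, fun P' h' => ?_, lim'⟩
  · haveI := (hν n f).1
    have e : P.map (fun T => WithLp.toLp 2 fun i => T (J (f i))) = ν n f := by
      refine ext_of_forall_integral_eq_of_IsFiniteMeasure fun F => ?_
      rw [integral_map (cv n f).measurable.aemeasurable F.continuous.aestronglyMeasurable]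
      refine tendsto_nhds_unique (lim' (F.compContinuous ⟨_, cv n f⟩)) ((hl n f F).congr' ?_)
      filter_upwards [self_mem_nhdsWithin] with a ha
      simp only [BoundedContinuousFunction.compContinuous_apply, ContinuousMap.coe_mk, hX a ha]
    obtain ⟨k1, k2⟩ := (hν n f).2 n hn id
    have cp : Continuous fun y : EuclideanSpace ℝ (Fin n) => ∏ j, y (id j) := by fun_prop
    rw [← e] at k1 k2
    rw [integral_map (cv n f).measurable.aemeasurable cp.aestronglyMeasurable] at k2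
    exact ⟨(integrable_map_measure cp.aestronglyMeasurable
      (cv n f).measurable.aemeasurable).1 k1, k2⟩
  · haveI := h'.1
    refine P153DK.uniq_dual J hJ.2.1 fun φ => ?_
    have e : P'.map (fun T => WithLp.toLp 2 fun _ : Fin 1 => T (J φ)) = ν 1 fun _ => φ := by
      refine hu 1 _ _ ⟨Measure.isProbabilityMeasure_map
        (cv 1 fun _ => φ).measurable.aemeasurable, fun n hn i => ?_⟩
      have cp : Continuous fun y : EuclideanSpace ℝ (Fin 1) => ∏ j, y (i j) := by fun_prop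
      obtain ⟨k1, k2⟩ := h'.2 n hn fun _ => φ
      rw [integral_map (cv 1 fun _ => φ).measurable.aemeasurable cp.aestronglyMeasurable]
      exact ⟨(integrable_map_measure cp.aestronglyMeasurable
        (cv 1 fun _ => φ).measurable.aemeasurable).2 k1, k2⟩
    rw [pm]
    show _ = (ν 1 fun _ => φ).map fun y => y 0
    rw [← e, Measure.map_map c0.measurable (cv 1 fun _ => φ).measurable]
    rfl

/-- The plane. -/
theorem plane {μ : Measure Config} {Z : ℝ} {C : Pts → ℝ} (hF : P144W.Fd μ ph) (hL : Law μ Z C) :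
    FieldH univ (famOf μ) Z C := fun U s hU _ hs =>
  ⟨let ⟨R, _, hR⟩ := exists_R U s; ⟨_, _, _, R, hR⟩, fun H _ _ J hJ =>
    core hs hU hJ (fun _ => hF.prob)
      (let ⟨K, hK, h⟩ := two_pt hF; ⟨K, hK, fun a ha z _ w _ => h a ha z w⟩)
      fun k f => hL k (fun i => f i) fun i => test (f i)⟩

theorem two_pt' {Ω : Type} [MeasurableSpace Ω] {μ : Measure Ω} {φ : ℝ → ℂ → Ω → ℝ}
    (hF : Sf.Fd μ φ) : ∃ K : ℝ, 0 ≤ K ∧ ∀ a > (0 : ℝ), ∀ z w : ℂ,
      w ≠ z → |cr μ φ a ![z, w]| ≤ K * ‖w - z‖ ^ (-(1 / 4) : ℝ) := by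
  haveI := hF.prob
  obtain ⟨K, T, hK, hT, h⟩ := hF.sep 2 even_two le_rfl (1 / 2) (by norm_num)
  refine ⟨K * 2 ^ (-(1 / 4) : ℝ) + (2 / T) ^ (-(1 / 4) : ℝ), by positivity, fun a ha z w hw => ?_⟩
  have hr : 0 < ‖w - z‖ := norm_pos_iff.2 (sub_ne_zero.2 hw)
  have sq : ∀ t : ℝ, 0 ≤ t → (t ^ (-(1 / 8) : ℝ)) ^ 2 = t ^ (-(1 / 4) : ℝ) := fun t ht => by
    rw [← Real.rpow_natCast, ← Real.rpow_mul ht]
    norm_num
  have p1 : 0 ≤ K * 2 ^ (-(1 / 4) : ℝ) * ‖w - z‖ ^ (-(1 / 4) : ℝ) := by positivity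
  have p2 : 0 ≤ (2 / T) ^ (-(1 / 4) : ℝ) * ‖w - z‖ ^ (-(1 / 4) : ℝ) := by positivity
  rw [add_mul]
  by_cases c : T * a ≤ 2 * ‖w - z‖
  · have := h a (2 * ‖w - z‖) z ![z, w] ha c (fun i => by
      fin_cases i
      · simpa using hr
      · simp only [mem_ball, dist_eq_norm]
        show ‖w - z‖ < _
        linarith) (fun i j hij => by
      fin_cases i <;> fin_cases j
      · exact absurd rfl hij
      · show _ ≤ ‖z - w‖
        rw [norm_sub_rev z w]
        linarith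
      · show _ ≤ ‖w - z‖
        linarith
      · exact absurd rfl hij)
    rw [sq _ (by positivity), Real.mul_rpow (by norm_num) hr.le] at this
    linarith
  · have h1 : |cr μ φ a ![z, w]| ≤ a ^ (-(1 / 4) : ℝ) := by
      rw [← Real.norm_eq_abs, ← sq a ha.le]
      refine (norm_integral_le_of_norm_le_const (C := (a ^ (-(1 / 8) : ℝ)) ^ 2)
        (Eventually.of_forall fun σ => ?_)).trans (by simp)
      rw [Real.norm_eq_abs, Fin.prod_univ_two, abs_mul, pow_two]
      exact mul_le_mul (hF.bd a ha _ σ) (hF.bd a ha _ σ) (abs_nonneg _) (by positivity)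
    have h2 : a ^ (-(1 / 4) : ℝ) ≤ (2 / T * ‖w - z‖) ^ (-(1 / 4) : ℝ) := by
      refine Real.rpow_le_rpow_of_nonpos (by positivity) ?_ (by norm_num)
      rw [div_mul_eq_mul_div, div_le_iff₀ hT]
      linarith
    rw [Real.mul_rpow (by positivity) hr.le] at h2
    linarith

/-- A domain. -/
theorem dom {J lam β Z Zε : ℝ} {V : Finset Site → ℝ} {D : Set ℂ} {b : Option (ℝ → Config)}
    {C : Pts → ℝ} (hJ : 0 < J) (hD : Bornology.IsBounded D) (ho : IsOpen D) (hZ : 0 < Z)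
    (hL : LocDiff D (crit J D b) (inDom J lam V β D b) Z Zε) (hS : SepD D (inDom J lam V β D b))
    (h0 : ∀ p, Good D p → p.m = 0 → Lim (crit J D b) p (C p)) :
    FieldH D (inDom J lam V β D b) Z C := by
  intro U s hU hK hs
  refine ⟨let ⟨R, _, hR⟩ := exists_R U s; ⟨_, _, _, R, hR⟩, fun H _ _ I hI => ?_⟩
  have cK : IsCompact (closure (U : Set ℂ)) := hU.isCompact_closure
  choose ρ hρ using fun a => P144M13.gibbs_law J lam V β (b.map fun η => η a) (disc D a) id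
  have e : ∀ a G, ∫ σ, G σ ∂(ρ a : Measure Config) = inDom J lam V β D b a G :=
    fun a G => (hρ a G).2
  obtain ⟨μ, hμ⟩ := Sf.exists_rp J lam V β D b
  obtain ⟨K, k0, h2⟩ := two_pt' (Sf.fd_of cK ho hK hμ hS
    (Sf.mac_diff cK hK (Sf.mac_zero hJ hD cK ho hK b) hL))
  have hf : ∀ f : SmoothOn U, Test f ∧ Function.support f ⊆ closure (U : Set ℂ) := fun f =>
    ⟨test f, (subset_tsupport _).trans (f.tsupport_subset.trans subset_closure)⟩
  simp only [DualLim, ← e]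
  refine core hs hU hI (fun a => (ρ a).2) ⟨K, k0, fun a ha z hz w hw hn => ?_⟩ fun k f => ?_
  · have := h2 a ha z w hn
    rw [Sf.cr_in hμ a (x := ![z, w]) (fun i => by
      fin_cases i
      exacts [subset_closure hz, subset_closure hw]), Sf.cs_eq, ← e] at this
    simp only [Fin.prod_univ_two] at this
    exact this
  · choose m hm using fun a => P144M13.gibbs_law J lam V β (b.map fun η => η a) (disc D a)
      fun σ => (WithLp.toLp 2 fun i => smear a (f i) σ : EuclideanSpace ℝ (Fin k))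
    obtain ⟨ν, n1, n2, n3⟩ := moments (l := 𝓝[>] (0 : ℝ)) m (fun n i => if n = 0 then 1 else
      Z ^ n * ∫ x : Fin n → ℂ, (∏ j, f (i j) (x j)) * C ⟨n, 0, x, ![], ![]⟩)
      (fun a n i => (hm a _).1) (fun n i => by
        rcases n.eq_zero_or_pos with rfl | hn
        · simp
        · simp only [(hm _ _).2, if_neg hn.ne']
          exact Sf.mom_lim hJ hD cK ho hK hL hS h0 hn fun j => hf (f (i j)))
      fun t => by
        refine (Sf.growth hJ hD cK ho hK h0 (fun i => hf (f i)) (fun i => t i) hZ).congr' ?_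
        filter_upwards [eventually_gt_atTop 0] with q hq
        simp only [if_neg (show 2 * q ≠ 0 by omega)]
    refine ⟨ν, ⟨ν.2, fun n hn i => ?_⟩,
      fun Q hQ => congrArg Subtype.val (n2 ⟨Q, hQ.1⟩ fun n i => ?_), fun F => ?_⟩
    · simpa only [if_neg hn.ne'] using n1 n i
    · rcases n.eq_zero_or_pos with rfl | hn
      · have := hQ.1
        simp
      · rw [if_neg hn.ne']
        exact hQ.2 n hn i
    · exact (ProbabilityMeasure.tendsto_iff_forall_integral_tendsto.1 n3 F).congr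
        fun a => (hm a _).2.trans (e a _).symm

end Vale.Agent.N144.Sb
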