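import Vale.Agent.P144H.Main
import Vale.Agent.P144F58.Sum
import Mathlib.Analysis.SpecialFunctions.Gaussian.FourierTransform
import Mathlib.MeasureTheory.Function.Holder

/-!
Gaussian kernels on the Fourier side, and second moments of the spin field.
-/

set_option linter.all false

noncomputable section

namespace Vale.Agent.N144.Sb

open MeasureTheory Filter Topology Metric Set TopologicalSpace Vale.Agent.P144 Vale.Agent.P144W
open Vale.Agent.P144F58 Vale.Agent.P144H Vale.Agent.P153.H212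
open Vale.Agent.P153DH (Rep H0 wt JS)
open scoped FourierTransform SchwartzMap ENNReal

/-- Square integrable functions. -/
abbrev L2 : Type := Lp ℂ 2 (volume : Measure ℂ)

theorem exists_mul {m : ℂ → ℝ} (hm : Continuous m) {c : ℝ} (hc : ∀ ξ, |m ξ| ≤ c) :
    ∃ M : L2 →L[ℝ] L2, (∀ v, ‖M v‖ ≤ c * ‖v‖) ∧
      ∀ v, M v =ᵐ[volume] fun ξ => (m ξ : ℂ) * v ξ := by
  have h : MemLp m ∞ (volume : Measure ℂ) :=
    memLp_top_of_bound hm.aestronglyMeasurable c (ae_of_all _ hc)
  let B : ℝ →L[ℝ] ℂ →L[ℝ] ℂ := ContinuousLinearMap.lsmul ℝ ℝ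
  have e : ∀ v : L2, B.holderL volume ∞ 2 2 h.toLp v =ᵐ[volume] fun ξ => (m ξ : ℂ) * v ξ :=
    fun v => by
      filter_upwards [B.coeFn_holder (r := 2) h.toLp v, h.coeFn_toLp] with ξ h1 h2
      rw [ContinuousLinearMap.holderL_apply_apply, h1, h2]
      simp [B]
  refine ⟨_, fun v => Lp.norm_le_mul_norm_of_ae_le_mul ?_, e⟩
  filter_upwards [e v] with ξ h1
  rw [h1, norm_mul, Complex.norm_real]
  exact mul_le_mul_of_nonneg_right (hc ξ) (norm_nonneg _)

/-- A plane wave with a Gaussian cut-off. -/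
def ge (τ : ℝ) (x ξ : ℂ) : ℂ := (Real.exp (-τ * ‖ξ‖ ^ 2) : ℝ) * (𝐞 (-inner ℝ ξ x) : Circle)

theorem gauss_int {b : ℝ} (hb : 0 < b) : Integrable fun ξ : ℂ => Real.exp (-b * ‖ξ‖ ^ 2) := by
  refine (GaussianFourier.integrable_cexp_neg_mul_sq_norm_add (V := ℂ) (b := b) hb 0 0).norm.congr
    (ae_of_all _ fun ξ => ?_)
  simp only [zero_mul, add_zero, Complex.norm_exp]
  congr 1
  norm_cast

theorem ge_mem {τ : ℝ} (hτ : 0 < τ) (x : ℂ) : MemLp (ge τ x) 2 volume := by
  have hc : Continuous (ge τ x) :=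
    (Complex.continuous_ofReal.comp (by fun_prop)).mul (continuous_subtype_val.comp
      (Real.continuous_fourierChar.comp (continuous_id.inner continuous_const).neg))
  rw [memLp_two_iff_integrable_sq_norm hc.aestronglyMeasurable]
  refine (gauss_int (b := 2 * τ) (by positivity)).congr (ae_of_all _ fun ξ => ?_)
  simp only [ge, norm_mul, Circle.norm_coe, mul_one, Complex.norm_real, Real.norm_eq_abs, sq_abs]
  rw [← Real.exp_nat_mul]
  congr 1
  push_cast
  ring

open Classical in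
/-- The same in `L²`. -/
def E (τ : ℝ) (x : ℂ) : L2 := if h : MemLp (ge τ x) 2 volume then h.toLp else 0

theorem E_ae {τ : ℝ} (hτ : 0 < τ) (x : ℂ) : E τ x =ᵐ[volume] ge τ x := by
  rw [E, dif_pos (ge_mem hτ x)]
  exact MemLp.coeFn_toLp _

/-- The heat kernel. -/
def p (τ : ℝ) (u : ℂ) : ℝ := Real.pi / (2 * τ) * Real.exp (-(Real.pi ^ 2 / (2 * τ)) * ‖u‖ ^ 2)

theorem p_pos {τ : ℝ} (hτ : 0 < τ) (u : ℂ) : 0 < p τ u := by
  unfold p
  have := Real.pi_pos
  positivity

theorem char_int {f : ℂ → ℂ} (hf : Integrable f) (x : ℂ) :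
    Integrable fun ξ : ℂ => (𝐞 (inner ℝ ξ x) : Circle) • f ξ := by
  have hc : Continuous fun ξ : ℂ => ((𝐞 (inner ℝ ξ x) : Circle) : ℂ) :=
    continuous_subtype_val.comp
      (Real.continuous_fourierChar.comp (continuous_id.inner continuous_const))
  refine hf.norm.mono' (hc.aestronglyMeasurable.mul hf.1) (ae_of_all _ fun ξ => ?_)
  rw [Circle.norm_smul]

theorem E_inner {τ : ℝ} (hτ : 0 < τ) (z w : ℂ) : inner ℝ (E τ z) (E τ w) = p τ (w - z) := by
  have h := fourier_gaussian_innerProductSpace (V := ℂ) (b := ((2 * τ : ℝ) : ℂ))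
    (by simpa using hτ) (w - z)
  have hi := char_int (gauss_int (b := 2 * τ) (by positivity)).ofReal (z - w)
  have e : ∀ ξ : ℂ, (𝐞 (-inner ℝ ξ (w - z)) : Circle) •
      Complex.exp (-((2 * τ : ℝ) : ℂ) * (‖ξ‖ : ℂ) ^ 2) =
      (𝐞 (inner ℝ ξ (z - w)) : Circle) • ((Real.exp (-(2 * τ) * ‖ξ‖ ^ 2) : ℝ) : ℂ) := fun ξ => by
    rw [← inner_neg_right, neg_sub]
    push_cast
    rfl
  rw [Real.fourier_eq, Complex.finrank_real_complex] at h
  simp only [e] at h
  have h2 : ((p τ (w - z) : ℝ) : ℂ) = ∫ ξ : ℂ, (𝐞 (inner ℝ ξ (z - w)) : Circle) •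
      ((Real.exp (-(2 * τ) * ‖ξ‖ ^ 2) : ℝ) : ℂ) := by
    rw [h, p]
    push_cast
    rw [div_self two_ne_zero, Complex.cpow_one]
    congr 2
    ring
  rw [← Complex.ofReal_re (p τ (w - z)), h2, L2.inner_def]
  refine Eq.trans ?_ (integral_re hi)
  refine integral_congr_ae ?_
  filter_upwards [E_ae hτ z, E_ae hτ w] with ξ h1 h3
  rw [h1, h3, Complex.inner, ge, ge, map_mul, Complex.conj_ofReal, ← Circle.coe_inv_eq_conj,
    ← AddChar.map_neg_eq_inv, neg_neg, Circle.smul_def, smul_eq_mul, RCLike.re_to_complex,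
    inner_sub_right, sub_eq_add_neg, AddChar.map_add_eq_mul, Circle.coe_mul,
    show -(2 * τ) * ‖ξ‖ ^ 2 = -τ * ‖ξ‖ ^ 2 + -τ * ‖ξ‖ ^ 2 by ring, Real.exp_add]
  generalize Real.exp (-τ * ‖ξ‖ ^ 2) = r
  congr 1
  change _ = _ * ((r * r : ℝ) : ℂ)
  push_cast
  ring

theorem E_norm {τ : ℝ} (hτ : 0 < τ) (z : ℂ) : ‖E τ z‖ ≤ √(p τ 0) := by
  rw [← Real.sqrt_sq (norm_nonneg (E τ z)), ← real_inner_self_eq_norm_sq, E_inner hτ, sub_self]

theorem E_cont {τ : ℝ} (hτ : 0 < τ) : Continuous (E τ) := by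
  refine continuous_iff_continuousAt.2 fun x => ?_
  have e : ∀ y, ‖E τ y - E τ x‖ = √(p τ 0 - 2 * p τ (x - y) + p τ 0) := fun y => by
    rw [← Real.sqrt_sq (norm_nonneg (E τ y - E τ x)), norm_sub_sq_real,
      ← real_inner_self_eq_norm_sq, ← real_inner_self_eq_norm_sq, E_inner hτ, E_inner hτ,
      E_inner hτ, sub_self, sub_self]
  have hc : Continuous fun y => √(p τ 0 - 2 * p τ (x - y) + p τ 0) := by
    unfold p
    fun_prop
  rw [ContinuousAt, tendsto_iff_norm_sub_tendsto_zero]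
  simp only [e]
  have := hc.tendsto x
  rwa [sub_self, show p τ 0 - 2 * p τ 0 + p τ 0 = 0 by ring, Real.sqrt_zero] at this

theorem sing_int {γ : ℝ} (h1 : γ < 2) (R : ℝ) :
    Integrable ((ball (0 : ℂ) R).indicator fun w => ‖w‖ ^ (-γ)) := by
  refine (integrable_indicator_iff measurableSet_ball).2 ?_
  refine integrableOn_ball_of_norm_le_rpow (C := 1) (α := γ) (by simp) (by simpa using h1)
    (Eventually.of_forall fun x => ?_) (Measurable.aestronglyMeasurable (by fun_prop))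
  rw [Real.norm_of_nonneg (by positivity), one_mul]

theorem heat {γ : ℝ} (h0 : 0 ≤ γ) (h1 : γ < 2) : ∃ c : ℝ, 0 ≤ c ∧ ∀ τ > (0 : ℝ),
    Integrable (fun u : ℂ => ‖u‖ ^ (-γ) * p τ u) ∧
      ∫ u : ℂ, ‖u‖ ^ (-γ) * p τ u = c * τ ^ (-(γ / 2)) := by
  have pi0 := Real.pi_pos
  have i1 : Integrable fun u : ℂ => ‖u‖ ^ (-γ) * p 1 u := by
    have i2 : Integrable (p 1) := (gauss_int (by positivity)).const_mul _
    refine (((sing_int h1 1).mul_const (Real.pi / (2 * 1))).add i2).mono'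
      (Measurable.aestronglyMeasurable (by unfold p; fun_prop)) (ae_of_all _ fun u => ?_)
    have q := p_pos one_pos u
    rw [Real.norm_of_nonneg (by positivity), Pi.add_apply]
    by_cases hu : u ∈ ball (0 : ℂ) 1
    · rw [indicator_of_mem hu]
      refine le_add_of_le_of_nonneg (mul_le_mul_of_nonneg_left ?_ (by positivity)) q.le
      refine mul_le_of_le_one_right (by positivity) (Real.exp_le_one_iff.2 ?_)
      rw [neg_mul, neg_nonpos]
      positivity
    · rw [indicator_of_notMem hu, zero_mul, zero_add]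
      exact mul_le_of_le_one_left q.le (Real.rpow_le_one_of_one_le_of_nonpos
        (not_lt.1 fun h => hu (mem_ball_zero_iff.2 h)) (by linarith))
  refine ⟨∫ u : ℂ, ‖u‖ ^ (-γ) * p 1 u, integral_nonneg fun u => by
    have := p_pos one_pos u
    positivity, fun τ hτ => ?_⟩
  have r0 : 0 < √τ := Real.sqrt_pos.2 hτ
  have e : ∀ u : ℂ, ‖√τ • u‖ ^ (-γ) * p τ (√τ • u) =
      τ ^ (-(γ / 2)) * τ⁻¹ * (‖u‖ ^ (-γ) * p 1 u) := fun u => by
    rw [p, p, norm_smul, Real.norm_of_nonneg r0.le, Real.mul_rpow r0.le (norm_nonneg _), mul_pow,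
      Real.sq_sqrt hτ.le, Real.sqrt_eq_rpow, ← Real.rpow_mul hτ.le,
      show 1 / 2 * -γ = -(γ / 2) by ring,
      show -(Real.pi ^ 2 / (2 * τ)) * (τ * ‖u‖ ^ 2) = -(Real.pi ^ 2 / (2 * 1)) * ‖u‖ ^ 2 by
        field_simp]
    field_simp
  have k := Measure.integral_comp_smul volume (fun u : ℂ => ‖u‖ ^ (-γ) * p τ u) √τ
  simp only [e] at k
  rw [integral_const_mul, Complex.finrank_real_complex, Real.sq_sqrt hτ.le,
    abs_of_pos (inv_pos.2 hτ), smul_eq_mul] at k
  refine ⟨(integrable_comp_smul_iff volume _ r0.ne').1 ?_, ?_⟩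
  · simp only [e]
    exact i1.const_mul _
  · refine mul_left_cancel₀ (inv_pos.2 hτ).ne' (k.symm.trans ?_)
    ring

variable {H : Type} [NormedAddCommGroup H] [InnerProductSpace ℝ H] [CompleteSpace H]

theorem ph_bd {a : ℝ} (ha : 0 < a) (z : ℂ) (σ : Config) : |ph a z σ| ≤ a ^ (-(1 / 8) : ℝ) := by
  rw [ph, abs_mul, P144W.abs_sp, mul_one, abs_of_nonneg (Real.rpow_nonneg ha.le _)]

theorem ph_meas (a : ℝ) : Measurable fun q : ℂ × Config => ph a q.1 q.2 := spin_meas a

theorem sm_ph (a : ℝ) {b : ℂ → H} (hb : StronglyMeasurable b) :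
    StronglyMeasurable fun q : ℂ × Config => ph a q.1 q.2 • b q.1 :=
  (ph_meas a).stronglyMeasurable.smul (hb.comp_measurable measurable_fst)

theorem int_ph {m : Measure ℂ} [IsFiniteMeasure m] {a : ℝ} (ha : 0 < a) {b : ℂ → H}
    (hb : StronglyMeasurable b) {M : ℝ} (hM : ∀ z, ‖b z‖ ≤ M) (σ : Config) :
    Integrable (fun z => ph a z σ • b z) m := by
  refine Integrable.of_bound ((sm_ph a hb).comp_measurable
    (measurable_id.prodMk measurable_const)).aestronglyMeasurable (a ^ (-(1 / 8) : ℝ) * M)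
    (Eventually.of_forall fun z => ?_)
  rw [norm_smul]
  exact mul_le_mul (ph_bd ha z σ) (hM z) (norm_nonneg _) (by positivity)

theorem mom {ρ : Measure Config} [IsProbabilityMeasure ρ] {U : Set ℂ} (mU : MeasurableSet U)
    [IsFiniteMeasure (volume.restrict U)] {a : ℝ} (ha : 0 < a) {b : ℂ → H}
    (hb : StronglyMeasurable b) {M : ℝ} (hM : ∀ z, ‖b z‖ ≤ M) {G : ℂ → ℝ} (hG : Integrable G)
    (G0 : ∀ u, 0 ≤ G u) (h : ∀ z ∈ U, ∀ w ∈ U, w ≠ z →
      |∫ σ, ph a z σ * ph a w σ ∂ρ| * |inner ℝ (b z) (b w)| ≤ G (w - z)) :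
    ∫ σ, ‖∫ z in U, ph a z σ • b z‖ ^ 2 ∂ρ ≤ (∫ u, G u) * (volume.restrict U).real univ := by
  set m := volume.restrict U with hm
  have M0 : 0 ≤ M := (norm_nonneg _).trans (hM 0)
  have ib : ∀ z w, |inner ℝ (b z) (b w)| ≤ M ^ 2 := fun z w =>
    (abs_real_inner_le_norm _ _).trans (by
      rw [pow_two]; exact mul_le_mul (hM z) (hM w) (norm_nonneg _) M0)
  let Φ : Config → ℂ × ℂ → ℝ := fun σ q => ph a q.1 σ * ph a q.2 σ * inner ℝ (b q.1) (b q.2)
  have e1 : ∀ σ, ‖∫ z, ph a z σ • b z ∂m‖ ^ 2 = ∫ q, Φ σ q ∂m.prod m := fun σ => by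
    have := integral_prod_bilin (innerSL ℝ (E := H)) (int_ph (m := m) ha hb hM σ)
      (int_ph (m := m) ha hb hM σ)
    rw [← real_inner_self_eq_norm_sq]
    refine (this.symm).trans (integral_congr_ae (Eventually.of_forall fun q => ?_))
    show inner ℝ (ph a q.1 σ • b q.1) (ph a q.2 σ • b q.2) =
      ph a q.1 σ * ph a q.2 σ * inner ℝ (b q.1) (b q.2)
    rw [real_inner_smul_left, real_inner_smul_right, mul_assoc]
  have mΦ : Measurable (Function.uncurry Φ) :=
    (((ph_meas a).comp (measurable_snd.fst.prodMk measurable_fst)).mul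
      ((ph_meas a).comp (measurable_snd.snd.prodMk measurable_fst))).mul
      ((hb.comp_measurable measurable_snd.fst).inner
        (hb.comp_measurable measurable_snd.snd)).measurable
  have iΦ : Integrable (Function.uncurry Φ) (ρ.prod (m.prod m)) := by
    refine Integrable.of_bound mΦ.aestronglyMeasurable
      (a ^ (-(1 / 8) : ℝ) * a ^ (-(1 / 8) : ℝ) * M ^ 2) (Eventually.of_forall fun q => ?_)
    show |ph a q.2.1 q.1 * ph a q.2.2 q.1 * inner ℝ (b q.2.1) (b q.2.2)| ≤ _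
    rw [abs_mul, abs_mul]
    exact mul_le_mul (mul_le_mul (ph_bd ha _ _) (ph_bd ha _ _) (abs_nonneg _) (by positivity))
      (ib _ _) (abs_nonneg _) (by positivity)
  simp only [e1]
  rw [integral_integral_swap iΦ, integral_prod (fun y => ∫ x, Φ x y ∂ρ) iΦ.integral_prod_right]
  refine (le_abs_self _).trans ?_
  rw [← Real.norm_eq_abs]
  refine norm_integral_le_of_norm_le_const ?_
  filter_upwards [ae_restrict_mem mU] with z hz
  have i1 : Integrable fun w => G (w - z) := hG.comp_sub_right z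
  refine (norm_integral_le_of_norm_le i1.integrableOn ?_).trans ?_
  · filter_upwards [ae_restrict_mem mU,
      ae_restrict_of_ae (compl_mem_ae_iff.2 (measure_singleton z))] with w hw hwz
    simp only [Φ]
    rw [integral_mul_const, Real.norm_eq_abs, abs_mul]
    exact h z hz w hw hwz
  · exact (setIntegral_le_integral i1 (Eventually.of_forall fun w => G0 _)).trans
      (integral_sub_right_eq_self G z).le

end Vale.Agent.N144.Sb
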